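import Crest.Agent.X262.Rul.Core
import Crest.Agent.X277.BD.BrA
import Crest.Agent.X277.BD.Pos
import Crest.Agent.X277.BRep.Defs

/-!
# Row 262, seam S1 (helper48): `PG` from a smooth model, transport along isomorphisms
-/

set_option autoImplicit false
set_option linter.style.haveILetI false
set_option linter.unusedSectionVars false

open scoped KaehlerDifferential
open Module

noncomputable section

namespace Crest.Agent.X262.Rul

open Crest.Agent.X277 Crest.Agent.X277.BD Crest.Agent.X277.BD.Br Crest.Agent.X277.Lef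

section Gen

variable {k F F' : Type} [Field k] [Field F] [Field F'] [Algebra k F] [Algebra k F'] {n : ℕ}

theorem RegTop.change {b : Basis (Fin n) F Ω[F⁄k]} {g : F} (h : RegTop b g)
    (b' : Basis (Fin n) F Ω[F⁄k]) : RegTop b' (b'.det b * g) := fun V => by
  obtain ⟨z, h1, h2⟩ := h V
  refine ⟨z, h1, ?_⟩
  rw [jac_change b' b, map_mul, map_mul]
  exact mul_le_mul_right h2 _

theorem PG.exists (h : PG k F n) (b : Basis (Fin n) F Ω[F⁄k]) : ∃ g, g ≠ 0 ∧ RegTop b g := by
  obtain ⟨b', g, h1, h2⟩ := h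
  exact ⟨_, mul_ne_zero (det_basis_ne_zero b b') h1, h2.change b⟩

/-- transport along an isomorphism, for a given basis on the other side -/
theorem PG.congr' (h : PG k F n) (e : F ≃ₐ[k] F') (b' : Basis (Fin n) F' Ω[F'⁄k]) :
    PG k F' n := by
  obtain ⟨b, g, h1, h2⟩ := h
  refine ⟨b', BRep.jf b b' e * e g, mul_ne_zero (BRep.jf_ne b b' e) ((map_ne_zero e).2 h1),
    fun W => ?_⟩
  let V : RZ k F := ⟨W.1.comap (e : F →+* F'), fun c => by
    rw [ValuationSubring.mem_comap]
    exact (e.commutes c).symm ▸ W.2 c⟩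
  obtain ⟨z, hz, hv⟩ := h2 V
  have hj : jac b z ≠ 0 := fun e => h1 (by
    rw [e, map_zero, le_zero_iff] at hv
    simpa using hv)
  refine ⟨fun l => e (z l), hz, ?_⟩
  rw [BRep.jac_map b b', map_mul, map_mul]
  refine mul_le_mul_right ((RZ.le_iff ((map_ne_zero e).2 hj)).2 ?_) _
  rw [← map_div₀]
  exact (RZ.le_iff (V := V) hj).1 hv

/-- a basis of the differentials can be transported along an isomorphism -/
theorem nonempty_basis (b : Basis (Fin n) F Ω[F⁄k]) (e : F ≃ₐ[k] F') :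
    Nonempty (Basis (Fin n) F' Ω[F'⁄k]) := by
  letI := (e : F →+* F').toAlgebra
  haveI : IsScalarTower k F F' := .of_algebraMap_eq fun c => (e.commutes c).symm
  haveI : Algebra.FormallyEtale F F' :=
    .of_equiv (A := F) (AlgEquiv.ofBijective (Algebra.ofId F F') e.bijective)
  exact ⟨(b.baseChange F').map (KaehlerDifferential.tensorKaehlerEquivOfFormallyEtale k F F')⟩

theorem PG.congr (h : PG k F n) (e : F ≃ₐ[k] F') : PG k F' n := by
  obtain ⟨b, hb⟩ := h
  obtain ⟨b'⟩ := nonempty_basis b e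
  exact PG.congr' ⟨b, hb⟩ e b'

end Gen

variable {F : Type} [Field F] [Algebra ℂ F] {n : ℕ} {P : PModel ℂ F}
  {b : Basis (Fin n) F Ω[F⁄ℂ]}

theorem regTop_of_mem {g : F} (h : g ∈ (kP P b).Sec) : RegTop b g := fun V => by
  obtain ⟨x, hx⟩ := exists_ov' P V
  obtain ⟨z, hz⟩ := AN.G1.exists_crd b x
  exact ⟨z, fun l => hx _ (hz.mem l), (h V).trans_eq (at_kP b hz V hx).symm⟩

theorem pg_of_eff (h : Eff (kP P b)) : PG ℂ F n := by
  obtain ⟨g, h1, h2⟩ := h
  exact ⟨b, g, h2, regTop_of_mem h1⟩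

theorem pg_of_lin (h : Lin (kP P b) 0) : PG ℂ F n := by
  obtain ⟨f, h1, h2⟩ := h
  refine pg_of_eff (P := P) (b := b) ⟨f, ?_, h1⟩
  rw [h2, zero_add]
  exact mem_Sec_pr f

end Crest.Agent.X262.Rul
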