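import Crest.Agent.X262.Rul.Core
import Crest.Agent.X262.Brg.Hyp0
import Crest.Agent.X262.Top.Defs

/-!
# Row 262, seam S1 (helper48): a rational function field has no subfield with `p_g > 0`
-/

set_option autoImplicit false
set_option linter.style.haveILetI false
set_option linter.unusedSectionVars false

open scoped KaehlerDifferential
open Module

noncomputable section

namespace Crest.Agent.X262.Rul

open Crest.Agent.X277 Crest.Agent.X277.BD Crest.Agent.X277.Lef

section Gen

variable {k K : Type} [Field k] [Field K] [Algebra k K]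

theorem der_zero_adjoin (D : Derivation k K K) {S : Set K} (h : ∀ x ∈ S, D x = 0) {a : K}
    (ha : a ∈ IntermediateField.adjoin k S) : D a = 0 := by
  induction ha using IntermediateField.adjoin_induction with
  | mem x hx => exact h x hx
  | algebraMap c => exact D.map_algebraMap c
  | add x y _ _ hx hy => rw [map_add, hx, hy, add_zero]
  | inv x _ hx => rw [Derivation.leibniz_inv, hx, smul_zero]
  | mul x y _ _ hx hy => rw [Derivation.leibniz, hx, hy, smul_zero, smul_zero, add_zero]

/-- a purely transcendental extension contains no field with a regular top form -/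
theorem noPG_of_free [CharZero k] {N n : ℕ} {x : Fin N → K} (hx : AlgebraicIndependent k x)
    (hg : IntermediateField.adjoin k (Set.range x) = ⊤) {F : Type} [Field F] [Algebra k F]
    (h : PG k F (n + 1)) : IsEmpty (F →ₐ[k] K) := ⟨fun φ => by
  letI := φ.toRingHom.toAlgebra
  haveI : IsScalarTower k F K := .of_algebraMap_eq fun c => (φ.commutes c).symm
  haveI : CharZero F := charZero_of_injective_algebraMap (algebraMap k F).injective
  choose δ hδ using fun j : Fin N => Exc.exists_der hx (Pi.single j 1)
  have h1 : ∀ j a, δ j (algebraMap F K a) = 0 := fun j a => by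
    let L := IntermediateField.adjoin k (x '' {j}ᶜ)
    haveI : Algebra.EssFiniteType k L := IntermediateField.essFiniteType_iff.2
      (IntermediateField.fg_adjoin_of_finite (Set.toFinite _))
    have h2 : ∀ c : L, δ j (algebraMap L K c) = 0 := fun c =>
      der_zero_adjoin (δ j) (by
        rintro _ ⟨i, hi, rfl⟩
        rw [hδ, Pi.single_eq_of_ne hi]) c.2
    have h3 : δ j (x j) = 1 := by rw [hδ, Pi.single_eq_same]
    refine h.dt (L := L) (t := x j) ⟨fun e => ?_, ?_⟩ h2 h3 a
    · exact one_ne_zero
        (h3.symm.trans (Exc.der_alg (δ j) L.toSubalgebra (fun c hc => h2 ⟨c, hc⟩) e))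
    · apply IntermediateField.restrictScalars_injective k
      rw [IntermediateField.adjoin_adjoin_left, IntermediateField.restrictScalars_top, ← hg,
        ← Set.image_singleton, ← Set.image_union, Set.compl_union_self, Set.image_univ]
  obtain ⟨b, -⟩ := h
  obtain ⟨D, hD⟩ := R276.Pur429.exists_derivation_ext (κ := K)
    ((b.constr F fun _ => (1 : K)).compDer (KaehlerDifferential.D k F))
  have h2 : lam F D = b.constr F fun _ => (1 : K) := lam_ext hD
  have h3 : lam F D = 0 := lam_ext fun a => by
    have h4 := der_zero_adjoin (D - ∑ j, D (x j) • δ j) (S := Set.range x) (by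
      rintro _ ⟨i, rfl⟩
      simp [der_sum, hδ, Pi.single_apply]) (a := algebraMap F K a) (hg ▸ trivial)
    simpa [der_sum, h1] using h4
  have h4 := LinearMap.congr_fun (h2.symm.trans h3) (b 0)
  simp at h4⟩

end Gen

variable {K : Type} [Field K] [Algebra ℂ K] {N : ℕ}

/-- the affine coordinates of projective space -/
theorem hyp_free (Y : Top.Hyp N 0 K) : AlgebraicIndependent ℂ (fun i : Fin N => Y.y i.succ / Y.y 0) ∧
    IntermediateField.adjoin ℂ (Set.range fun i : Fin N => Y.y i.succ / Y.y 0) = ⊤ := by
  have e : (Fin.cons 1 fun i : Fin N => Y.y i.succ / Y.y 0 : Fin (N + 1) → K) =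
      (Y.y 0)⁻¹ • Y.y := by
    funext i
    refine Fin.cases ?_ (fun i => ?_) i
    · simp [Y.y_ne 0]
    · simp [div_eq_inv_mul]
  constructor
  · rw [algebraicIndependent_iff]
    intro p hp
    have h1 := Brg.Cubic.hom_isHomogeneous p.totalDegree p
    rw [← Brg.Cubic.deh_hom (le_refl p.totalDegree), ← Brg.Hyp0.aeval_cons, e,
      Brg.Hyp0.aeval_smul h1, mul_eq_zero] at hp
    have h2 := (Y.ker _ _ h1).1 (hp.resolve_left (pow_ne_zero _ (inv_ne_zero (Y.y_ne 0))))
    rw [← Brg.Cubic.deh_hom (le_refl p.totalDegree), zero_dvd_iff.1 h2, map_zero]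
  · have h1 : ∀ a ∈ chart ℂ Y.y 0,
        a ∈ IntermediateField.adjoin ℂ (Set.range fun i : Fin N => Y.y i.succ / Y.y 0) := by
      intro a ha
      refine (Algebra.adjoin_le (S := (IntermediateField.adjoin ℂ
        (Set.range fun i : Fin N => Y.y i.succ / Y.y 0)).toSubalgebra) ?_) ha
      rintro _ ⟨i, rfl⟩
      refine Fin.cases ?_ (fun i => ?_) i
      · simp [Y.y_ne 0]
      · exact IntermediateField.subset_adjoin _ _ ⟨i, rfl⟩
    rw [eq_top_iff]
    rintro f -
    obtain ⟨a, ha, c, hc, -, rfl⟩ := Y.frac f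
    exact div_mem (h1 a ha) (h1 c hc)

/-- **NoPG** -/
theorem noPG (Y : Top.Hyp N 0 K) {n : ℕ} {F : Type} [Field F] [Algebra ℂ F]
    (h : PG ℂ F (n + 1)) : IsEmpty (F →ₐ[ℂ] K) :=
  noPG_of_free (hyp_free Y).1 (hyp_free Y).2 h

end Crest.Agent.X262.Rul
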