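import Crest.Agent.X277.BD.Defs
import Crest.Agent.X277.Lef.PModel
import Crest.Agent.X277.Exc.Der
import Crest.Agent.R276.Pur0_429

/-!
# Row 262, seam S1 (helper48): fields with a regular top form are not ruled; rulings are unique

* `RegTop b g`  : the top form `g · b₁ ∧ ⋯ ∧ bₙ` is regular at every valuation ring;
* `PG k F n`    : `F` has a nonzero regular top form (`p_g > 0`);
* `IsRat L t`   : `M = L(t)` with `t` transcendental;
* `range_le`    : `PG k F n`, `F ⊆ M = L(t)` gives `F ⊆ L`;
* `range_eq`    : `M = F(s) = L(t)` gives `F = L`;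
* `rul`         : `RatFunc F ≃ RatFunc L` restricts to `F ≃ L`.
-/

set_option autoImplicit false
set_option linter.style.haveILetI false
set_option linter.unusedSectionVars false

open scoped KaehlerDifferential
open Module Polynomial

noncomputable section

namespace Crest.Agent.X262.Rul

open Crest.Agent.X277 Crest.Agent.X277.BD Crest.Agent.X277.Lef

/-- the top form `g · b₁ ∧ ⋯ ∧ bₙ` is regular at every valuation ring -/
def RegTop {k F : Type} [Field k] [Field F] [Algebra k F] {n : ℕ}
    (b : Basis (Fin n) F Ω[F⁄k]) (g : F) : Prop :=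
  ∀ V : RZ k F, ∃ z : Fin n → F, (∀ l, z l ∈ V.1) ∧ V.v g ≤ V.v (jac b z)

/-- the field `F` of dimension `n` has a nonzero regular top form -/
def PG (k F : Type) [Field k] [Field F] [Algebra k F] (n : ℕ) : Prop :=
  ∃ (b : Basis (Fin n) F Ω[F⁄k]) (g : F), g ≠ 0 ∧ RegTop b g

/-- `M = L(t)`, `t` transcendental -/
structure IsRat (L : Type) {M : Type} [Field L] [Field M] [Algebra L M] (t : M) : Prop where
  tr : Transcendental L t
  gen : IntermediateField.adjoin L {t} = ⊤

section Rat

variable {L M : Type} [Field L] [Field M] [Algebra L M] {t : M}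

theorem IsRat.inj (h : IsRat L t) : Function.Injective (aeval t : L[X] →ₐ[L] M) :=
  transcendental_iff_injective.1 h.tr

theorem IsRat.ne (h : IsRat L t) : t ≠ 0 := fun e => h.tr (e ▸ isAlgebraic_zero)

theorem IsRat.inv (h : IsRat L t) : IsRat L t⁻¹ := by
  refine ⟨fun e => h.tr (IsAlgebraic.inv_iff.1 e), ?_⟩
  rw [eq_top_iff, ← h.gen, IntermediateField.adjoin_simple_le_iff]
  have := (IntermediateField.adjoin L {t⁻¹}).inv_mem (IntermediateField.mem_adjoin_simple_self L t⁻¹)
  rwa [inv_inv] at this

theorem IsRat.frac (h : IsRat L t) (a : M) :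
    ∃ p q : L[X], IsCoprime p q ∧ aeval t q ≠ 0 ∧ a = aeval t p / aeval t q := by
  classical
  have ha : a ∈ IntermediateField.adjoin L {t} := h.gen ▸ IntermediateField.mem_top
  obtain ⟨p, q, rfl⟩ := (IntermediateField.mem_adjoin_simple_iff L a).1 ha
  by_cases hq : q = 0
  · exact ⟨0, 1, isCoprime_one_right, by simp, by simp [hq]⟩
  have hg : gcd p q ≠ 0 := gcd_ne_zero_of_right hq
  have hg' : aeval t (gcd p q) ≠ 0 := fun e => hg (h.inj (by rw [e, map_zero]))
  have h1 : gcd p q * (p / gcd p q) = p := EuclideanDomain.mul_div_cancel' hg (gcd_dvd_left p q)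
  have h2 : gcd p q * (q / gcd p q) = q := EuclideanDomain.mul_div_cancel' hg (gcd_dvd_right p q)
  refine ⟨p / gcd p q, q / gcd p q, isCoprime_div_gcd_div_gcd hq, fun e => hq (h.inj ?_), ?_⟩
  · rw [← h2, map_mul, e, mul_zero, map_zero]
  · rw [← mul_div_mul_left (aeval t (p / gcd p q)) _ hg', ← map_mul, ← map_mul, h1, h2]

theorem isRat_X : IsRat L (RatFunc.X : RatFunc L) :=
  ⟨RatFunc.transcendental_X, RatFunc.adjoin_X⟩

/-- coprime polynomials do not both vanish at a valuation ring which contains `L[t]` -/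
theorem not_both {W : ValuationSubring M} (hW : ∀ p : L[X], aeval t p ∈ W) {p q : L[X]}
    (hc : IsCoprime p q) (hp : W.valuation (aeval t p) < 1) (hq : W.valuation (aeval t q) < 1) :
    False := by
  obtain ⟨α, β, e⟩ := hc
  have h1 : aeval t α * aeval t p + aeval t β * aeval t q = 1 := by
    rw [← map_mul, ← map_mul, ← map_add, e, map_one]
  have h2 : ∀ r s : L[X], W.valuation (aeval t s) < 1 →
      W.valuation (aeval t r * aeval t s) < 1 := fun r s hs => by
    rw [map_mul]
    exact (mul_le_of_le_one_left' ((W.valuation_le_one_iff _).2 (hW r))).trans_lt hs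
  have h3 := W.valuation.map_add_lt (h2 α p hp) (h2 β q hq)
  rw [h1, map_one] at h3
  exact lt_irrefl _ h3

/-- an element of all valuation rings over `L[t]` is a polynomial -/
theorem IsRat.poly (h : IsRat L t) {a : M}
    (ha : ∀ W : ValuationSubring M, (∀ p : L[X], aeval t p ∈ W) → a ∈ W) :
    ∃ p : L[X], a = aeval t p := by
  obtain ⟨p, q, hc, hq, rfl⟩ := h.frac a
  by_cases hu : IsUnit q
  · obtain ⟨r, hr⟩ := hu.exists_right_inv
    refine ⟨p * r, ?_⟩
    rw [div_eq_iff hq, ← map_mul, mul_assoc, mul_comm r, hr, mul_one]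
  exfalso
  let A : Subring M := (aeval t : L[X] →ₐ[L] M).range.toSubring
  let y : A := ⟨aeval t q, ⟨q, rfl⟩⟩
  have hI : Ideal.span {y} ≠ ⊤ := by
    rw [Ne, Ideal.span_singleton_eq_top]
    intro hy
    obtain ⟨⟨_, r, rfl⟩, hr⟩ := hy.exists_right_inv
    refine hu (IsUnit.of_mul_eq_one r (h.inj ?_))
    rw [map_mul, map_one]
    exact congrArg Subtype.val hr
  obtain ⟨W, h1, h2⟩ := Ideal.image_subset_nonunits_valuationSubring _ hI
  have hW : ∀ p : L[X], aeval t p ∈ W := fun p => h1 ⟨p, rfl⟩
  have h3 : W.valuation (aeval t q) < 1 :=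
    W.mem_nonunits_iff.1 (h2 ⟨y, Ideal.subset_span rfl, rfl⟩)
  refine not_both hW hc ?_ h3
  have h4 := (W.valuation_le_one_iff _).2 (ha W hW)
  rw [← div_mul_cancel₀ (aeval t p) hq, map_mul]
  exact (mul_le_of_le_one_left' h4).trans_lt h3

/-- a polynomial in `t` with a double zero at infinity vanishes -/
theorem IsRat.zero (h : IsRat L t) {p q : L[X]} (e : t ^ 2 * aeval t p = aeval t⁻¹ q) : p = 0 := by
  letI := invertibleOfNonzero h.ne
  have h1 := eval₂_reverse_mul_pow (algebraMap L M) t p
  rw [invOf_eq_inv, ← aeval_def, ← aeval_def] at h1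
  have h2 : p.reverse = X ^ (p.natDegree + 2) * q := by
    refine h.inv.inj ?_
    have := h.ne
    rw [map_mul, map_pow, aeval_X, ← e, ← h1, inv_pow]
    field_simp
    ring
  have h3 := congrArg (fun r : L[X] => r.coeff 0) h2
  simp only [coeff_zero_reverse, mul_coeff_zero, coeff_X_pow] at h3
  simpa using h3

variable {k : Type} [Field k] [Algebra k L] [Algebra k M] [IsScalarTower k L M]

theorem der_sum {ι : Type} (s : Finset ι) (D : ι → Derivation k M M) (a : M) :
    (∑ i ∈ s, D i) a = ∑ i ∈ s, D i a := by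
  classical
  induction s using Finset.induction_on with
  | empty => simp
  | insert i s hi ih => rw [Finset.sum_insert hi, Finset.sum_insert hi, Derivation.add_apply, ih]

/-- derivations which keep `L[t]` -/
theorem der_aeval (D : Derivation k M M) (S : Subring M) (hS : ∀ p : L[X], aeval t p ∈ S)
    (h1 : ∀ c : L, D (algebraMap L M c) ∈ S) (h2 : D t ∈ S) (p : L[X]) : D (aeval t p) ∈ S := by
  induction p using Polynomial.induction_on with
  | C a => simpa using h1 a
  | add p q hp hq => rw [map_add, map_add]; exact add_mem hp hq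
  | monomial n a hn =>
    rw [pow_succ, ← mul_assoc, map_mul, aeval_X, Derivation.leibniz, smul_eq_mul, smul_eq_mul]
    exact add_mem (mul_mem (hS _) h2) (mul_mem (by simpa using hS X) hn)

theorem IsRat.der_mem (h : IsRat L t) (D : Derivation k M M) {W : ValuationSubring M}
    (hW : ∀ p : L[X], aeval t p ∈ W) (h1 : ∀ c : L, D (algebraMap L M c) ∈ W) (h2 : D t ∈ W)
    {a : M} (ha : a ∈ W) : D a ∈ W := by
  obtain ⟨p, q, hc, hq, rfl⟩ := h.frac a
  have h3 : W.valuation (aeval t q) = 1 := by
    refine ((W.valuation_le_one_iff _).2 (hW q)).eq_or_lt.elim id fun h3 => ?_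
    refine (not_both hW hc ?_ h3).elim
    rw [← div_mul_cancel₀ (aeval t p) hq, map_mul]
    exact (mul_le_of_le_one_left' ((W.valuation_le_one_iff _).2 ha)).trans_lt h3
  have h4 : (aeval t q)⁻¹ ∈ W := (W.valuation_le_one_iff _).1 (by rw [map_inv₀, h3, inv_one])
  have h5 := der_aeval D W.toSubring hW h1 h2
  rw [Derivation.leibniz_div, smul_eq_mul, smul_eq_mul, smul_eq_mul]
  exact mul_mem (pow_mem h4 2) (sub_mem (mul_mem (hW q) (h5 p)) (mul_mem (hW p) (h5 q)))

/-- a derivation of `L(t)` is known from its values on `L` and `t` -/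
theorem IsRat.der_ext (h : IsRat L t) {D D' : Derivation k M M}
    (h1 : ∀ c : L, D (algebraMap L M c) = D' (algebraMap L M c)) (h2 : D t = D' t) : D = D' := by
  have h3 : ∀ p : L[X], D (aeval t p) = D' (aeval t p) := fun p => by
    induction p using Polynomial.induction_on with
    | C a => simpa using h1 a
    | add p q hp hq => simp only [map_add, hp, hq]
    | monomial n a hn =>
      rw [pow_succ, ← mul_assoc, map_mul, aeval_X, Derivation.leibniz, Derivation.leibniz, hn, h2]
  ext a
  obtain ⟨p, q, -, -, rfl⟩ := h.frac a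
  rw [Derivation.leibniz_div, Derivation.leibniz_div, h3, h3]

/-- `d / d t` -/
theorem IsRat.exists_dt [CharZero k] (h : IsRat L t) : ∃ D : Derivation k M M,
    (∀ c : L, D (algebraMap L M c) = 0) ∧ D t = 1 ∧
      ∀ a, D a = 0 → a ∈ (algebraMap L M).range := by
  haveI : CharZero L := charZero_of_injective_algebraMap (algebraMap k L).injective
  obtain ⟨δ, hδ⟩ := Exc.exists_der (k := L) (x := fun _ : Unit => t)
    (algebraicIndependent_unique_type_iff.2 h.tr) fun _ => 1
  have h1 : δ t = 1 := hδ ()
  have h2 : ∀ p : L[X], δ (aeval t p) = aeval t (derivative p) := fun p => by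
    rw [Derivation.map_aeval, h1, smul_eq_mul, mul_one]
  refine ⟨δ.restrictScalars k, fun c => δ.map_algebraMap c, h1, fun a ha => ?_⟩
  obtain ⟨p, q, hc, hq, rfl⟩ := h.frac a
  have h3 : δ (aeval t p / aeval t q) = 0 := ha
  rw [Derivation.leibniz_div, h2, h2, smul_eq_mul, smul_eq_mul, smul_eq_mul,
    mul_eq_zero, sub_eq_zero, ← map_mul, ← map_mul] at h3
  have h4 : q * derivative p = p * derivative q :=
    h.inj (h3.resolve_left (pow_ne_zero 2 (inv_ne_zero hq)))
  have hq0 : q ≠ 0 := fun e => hq (by rw [e, map_zero])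
  have h5 : derivative q = 0 := by
    have : q ∣ derivative q := hc.symm.dvd_of_dvd_mul_left ⟨_, h4.symm⟩
    by_contra h6
    have h7 := natDegree_le_of_dvd this h6
    have h8 : q.natDegree ≠ 0 := fun e => h6 (derivative_of_natDegree_zero e)
    have := natDegree_derivative_lt h8
    omega
  have h6 : derivative p = 0 := by
    rw [h5, mul_zero] at h4
    exact (mul_eq_zero.1 h4).resolve_left hq0
  rw [eq_C_of_derivative_eq_zero h5, eq_C_of_derivative_eq_zero h6, aeval_C, aeval_C, ← map_div₀]
  exact ⟨_, rfl⟩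

end Rat

section Main

variable {k F L M : Type} [Field k] [CharZero k] [Field F] [Field L] [Field M]
  [Algebra k F] [Algebra k L] [Algebra k M] [Algebra F M] [Algebra L M]
  [IsScalarTower k F M] [IsScalarTower k L M] {n : ℕ} {t : M}

variable (F) in
/-- the linear form on the differentials of `F` given by a derivation of `M` -/
def lam (D : Derivation k M M) : Ω[F⁄k] →ₗ[F] M := (D.compAlgebraMap F).liftKaehlerDifferential

theorem lam_D (D : Derivation k M M) (a : F) :
    lam F D (KaehlerDifferential.D k F a) = D (algebraMap F M a) :=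
  Derivation.liftKaehlerDifferential_comp_D _ a

theorem lam_ext {D : Derivation k M M} {l : Ω[F⁄k] →ₗ[F] M}
    (h : ∀ a, D (algebraMap F M a) = l (KaehlerDifferential.D k F a)) : lam F D = l := by
  refine LinearMap.ext_on (KaehlerDifferential.span_range_derivation k F) ?_
  rintro _ ⟨a, rfl⟩
  rw [lam_D, h]

theorem det_der (b : Basis (Fin n) F Ω[F⁄k]) (D : Fin n → Derivation k M M) (z : Fin n → F) :
    (Matrix.of fun j i => D j (algebraMap F M (z i))).det =
      (Matrix.of fun j i => lam F (D j) (b i)).det * algebraMap F M (jac b z) := by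
  rw [jac_eq_toMatrix, RingHom.map_det, ← Matrix.det_mul]
  congr 1
  ext j i
  rw [Matrix.of_apply, ← lam_D, ← b.sum_repr (KaehlerDifferential.D k F (z i)), map_sum,
    Matrix.mul_apply]
  refine Finset.sum_congr rfl fun l _ => ?_
  rw [map_smul, Algebra.smul_def, mul_comm]
  rfl

/-- the contraction of a regular form with polynomial vector fields is a polynomial -/
theorem RegTop.poly (h : IsRat L t) {b : Basis (Fin n) F Ω[F⁄k]} {g : F} (hg0 : g ≠ 0)
    (hg : RegTop b g) (D : Fin n → Derivation k M M)
    (h1 : ∀ j c, D j (algebraMap L M c) ∈ (algebraMap L M).range)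
    (h2 : ∀ j, D j t ∈ (algebraMap L M).range) :
    ∃ p : L[X], algebraMap F M g * (Matrix.of fun j i => lam F (D j) (b i)).det = aeval t p := by
  refine h.poly fun W hW => ?_
  have hL : ∀ x ∈ (algebraMap L M).range, x ∈ W := by
    rintro _ ⟨c, rfl⟩
    simpa using hW (C c)
  let V : RZ k F := ⟨W.comap (algebraMap F M), fun c => by
    rw [ValuationSubring.mem_comap, ← IsScalarTower.algebraMap_apply,
      IsScalarTower.algebraMap_apply k L M]
    exact hL _ ⟨_, rfl⟩⟩
  obtain ⟨z, hz, hv⟩ := hg V
  have hj : jac b z ≠ 0 := fun e => hg0 (by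
    rw [e, map_zero, le_zero_iff] at hv
    simpa using hv)
  have h3 : algebraMap F M (g / jac b z) ∈ W := (RZ.le_iff hj).1 hv
  have h4 : algebraMap F M g * (Matrix.of fun j i => lam F (D j) (b i)).det =
      algebraMap F M (g / jac b z) * (Matrix.of fun j i => D j (algebraMap F M (z i))).det := by
    have : algebraMap F M (jac b z) ≠ 0 := by simpa using hj
    rw [det_der b, map_div₀]
    field_simp
  rw [h4, Matrix.det_apply']
  refine mul_mem h3 (sum_mem fun σ _ => mul_mem (intCast_mem _ _) (prod_mem fun i _ => ?_))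
  exact h.der_mem (D _) hW (fun c => hL _ (h1 _ c)) (hL _ (h2 _)) (hz i)

/-- every derivation of `L(t)` is a combination of `d / d t` and of lifts from `L` -/
theorem IsRat.mem_span [Module.Finite L Ω[L⁄k]] (h : IsRat L t) (b : Basis (Fin n) F Ω[F⁄k])
    {δ : Derivation k M M} (hδ : ∀ c : L, δ (algebraMap L M c) = 0) (h1 : δ t = 1) :
    Submodule.span M (Set.range fun D : {D : Derivation k M M // D = δ ∨
      ((∀ c, D (algebraMap L M c) ∈ (algebraMap L M).range) ∧ D t = 0)} =>
        fun i => lam F D.1 (b i)) = ⊤ := by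
  haveI : CharZero L := charZero_of_injective_algebraMap (algebraMap k L).injective
  haveI : CharZero F := charZero_of_injective_algebraMap (algebraMap k F).injective
  rw [eq_top_iff]
  rintro μ -
  obtain ⟨D, hD⟩ := R276.Pur429.exists_derivation_ext (κ := M)
    ((b.constr F μ).compDer (KaehlerDifferential.D k F))
  have h2 : lam F D = b.constr F μ := lam_ext hD
  let c := Module.finBasis L Ω[L⁄k]
  have h3 : ∀ l, ∃ E : Derivation k M M, (∀ x, E (algebraMap L M x) =
      algebraMap L M (c.coord l (KaehlerDifferential.D k L x))) ∧ E t = 0 := fun l => by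
    obtain ⟨E, hE⟩ := R276.Pur429.exists_derivation_ext (κ := M)
      ((Algebra.linearMap L M ∘ₗ c.coord l).compDer (KaehlerDifferential.D k L))
    refine ⟨E - E t • δ, fun x => ?_, ?_⟩
    · rw [Derivation.sub_apply, Derivation.smul_apply, hδ, smul_zero, sub_zero, hE]
      rfl
    · rw [Derivation.sub_apply, Derivation.smul_apply, h1, smul_eq_mul, mul_one, sub_self]
  choose E hE1 hE2 using h3
  have h4 : D = D t • δ + ∑ l, lam L D (c l) • E l := by
    refine h.der_ext (fun x => ?_) ?_
    · rw [Derivation.add_apply, Derivation.smul_apply, hδ, smul_zero, zero_add, ← lam_D,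
        ← c.sum_repr (KaehlerDifferential.D k L x), map_sum, der_sum]
      refine Finset.sum_congr rfl fun l _ => ?_
      rw [map_smul, Derivation.smul_apply, hE1, Algebra.smul_def, smul_eq_mul, mul_comm]
      rfl
    · rw [Derivation.add_apply, Derivation.smul_apply, h1, der_sum]
      simp [hE2]
  have h5 : lam F D = D t • lam F δ + ∑ l, lam L D (c l) • lam F (E l) := by
    refine lam_ext fun a => ?_
    conv_lhs => rw [h4]
    simp [lam_D, der_sum]
  have h6 : μ = D t • (fun i => lam F δ (b i)) +
      ∑ l, lam L D (c l) • fun i => lam F (E l) (b i) := by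
    funext i
    have := LinearMap.congr_fun h5 (b i)
    rw [h2, Basis.constr_basis] at this
    simpa using this
  rw [h6]
  refine add_mem (Submodule.smul_mem _ _ (Submodule.subset_span ⟨⟨δ, .inl rfl⟩, rfl⟩))
    (sum_mem fun l _ => Submodule.smul_mem _ _ (Submodule.subset_span
      ⟨⟨E l, .inr ⟨fun x => ⟨_, (hE1 l x).symm⟩, hE2 l⟩⟩, rfl⟩))

/-- a field with a regular top form is killed by `d / d t` -/
theorem PG.dt [Module.Finite L Ω[L⁄k]] (hF : PG k F n) (h : IsRat L t) {δ : Derivation k M M}
    (hδ : ∀ c : L, δ (algebraMap L M c) = 0) (h1 : δ t = 1) (a : F) :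
    δ (algebraMap F M a) = 0 := by
  obtain ⟨b, g, hg0, hg⟩ := hF
  suffices h2 : ∀ i, lam F δ (b i) = 0 by
    rw [← lam_D, show lam F δ = 0 from b.ext h2, LinearMap.zero_apply]
  obtain _ | m := n
  · exact fun i => i.elim0
  set v : Fin (m + 1) → M := fun i => lam F δ (b i) with hv
  have key : (Matrix.detRowAlternating (n := Fin (m + 1)) (R := M)).toMultilinearMap.curryLeft v
      = 0 := by
    refine MultilinearMap.ext_of_span_eq_top (fun _ => h.mem_span b hδ h1) fun D => ?_
    show Matrix.detRowAlternating (Fin.cons v fun j i => lam F (D j).1 (b i)) = 0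
    by_cases hD : ∃ j, (D j).1 = δ
    · obtain ⟨j, hj⟩ := hD
      refine AlternatingMap.map_eq_zero_of_eq _ _ (i := 0) (j := j.succ) ?_ (Fin.succ_ne_zero j).symm
      simp [hj, hv]
    have h3 := fun j => (D j).2.resolve_left fun e => hD ⟨j, e⟩
    have hz : (0 : M) ∈ (algebraMap L M).range := zero_mem _
    obtain ⟨p, hp⟩ := hg.poly h hg0 (Fin.cons δ fun j => (D j).1)
      (Fin.cases (fun c => by simp [hδ]) fun j => by simpa using (h3 j).1)
      (Fin.cases (by simp [h1]) fun j => by simp [(h3 j).2])
    obtain ⟨q, hq⟩ := hg.poly h.inv hg0 (Fin.cons (t ^ 2 • δ) fun j => (D j).1)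
      (Fin.cases (fun c => by simp [hδ]) fun j => by simpa using (h3 j).1)
      (Fin.cases (by
        have := h.ne
        refine ⟨-1, ?_⟩
        simp only [Fin.cons_zero, Derivation.smul_apply, Derivation.leibniz_inv, h1, smul_eq_mul,
          map_neg, map_one]
        field_simp) fun j => by simp [Derivation.leibniz_inv, (h3 j).2])
    have e1 : (Matrix.of fun j i => lam F ((Fin.cons δ fun j => (D j).1 :
        Fin (m + 1) → Derivation k M M) j) (b i)) =
        Matrix.of (Fin.cons v fun j i => lam F (D j).1 (b i)) := by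
      ext j i
      refine Fin.cases ?_ (fun j => ?_) j <;> simp [hv]
    have e2 : (Matrix.of fun j i => lam F ((Fin.cons (t ^ 2 • δ) fun j => (D j).1 :
        Fin (m + 1) → Derivation k M M) j) (b i)) =
        (Matrix.of (Fin.cons v fun j i => lam F (D j).1 (b i))).updateRow 0 (t ^ 2 • v) := by
      have : lam F (t ^ 2 • δ) = t ^ 2 • lam F δ := lam_ext fun a => by simp [lam_D]
      ext j i
      refine Fin.cases ?_ (fun j => ?_) j
      · simp [hv, this]
      · simp
    have e3 : (Matrix.of (Fin.cons v fun j i => lam F (D j).1 (b i))).updateRow 0 v =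
        Matrix.of (Fin.cons v fun j i => lam F (D j).1 (b i)) := Matrix.updateRow_eq_self _ 0
    rw [e2, Matrix.det_updateRow_smul, e3, mul_left_comm, ← e1, hp] at hq
    rw [h.zero hq, map_zero, e1] at hp
    exact (mul_eq_zero.1 hp).resolve_left (by simpa using hg0)
  intro i
  let N := ((1 : Matrix (Fin (m + 1)) (Fin (m + 1)) M).updateRow i v).submatrix (Equiv.swap 0 i) id
  have h2 : N 0 = v := by
    funext l
    simp [N]
  have h3 : N.det = 0 := by
    have := MultilinearMap.congr_fun key (Fin.tail N)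
    rw [MultilinearMap.curryLeft_apply, ← h2] at this
    exact (congrArg Matrix.detRowAlternating
      (Fin.cons_self_tail (α := fun _ => Fin (m + 1) → M) N)).symm.trans this
  rw [Matrix.det_permute, ← Matrix.cramer_transpose_apply, Matrix.transpose_one,
    Matrix.cramer_one] at h3
  refine (mul_eq_zero.1 h3).resolve_left ?_
  haveI : CharZero M := charZero_of_injective_algebraMap (algebraMap k M).injective
  exact Int.cast_ne_zero.2 (Units.ne_zero _)

/-- **not uniruled**: a subfield with a regular top form lies in the field of constants -/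
theorem range_le [Module.Finite L Ω[L⁄k]] (hF : PG k F n) (h : IsRat L t) (a : F) :
    algebraMap F M a ∈ (algebraMap L M).range := by
  obtain ⟨δ, h1, h2, h3⟩ := h.exists_dt (k := k)
  exact h3 _ (hF.dt h h1 h2 a)

/-- **the ruling is unique** -/
theorem range_eq [Module.Finite L Ω[L⁄k]] (hF : PG k F n) {s : M} (hs : IsRat F s)
    (h : IsRat L t) : (algebraMap F M).range = (algebraMap L M).range := by
  refine le_antisymm (by rintro _ ⟨a, rfl⟩; exact range_le hF h a) ?_
  obtain ⟨δ, h1, h2, -⟩ := h.exists_dt (k := k)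
  obtain ⟨ε, e1, e2, e3⟩ := hs.exists_dt (k := k)
  have h4 : δ = δ s • ε := hs.der_ext (fun c => by simp [e1, hF.dt h h1 h2]) (by simp [e2])
  have h5 : δ s ≠ 0 := fun e => by
    rw [h4, e, zero_smul] at h2
    simp at h2
  rintro _ ⟨c, rfl⟩
  have h6 := h1 c
  rw [h4, Derivation.smul_apply, smul_eq_mul] at h6
  exact e3 _ ((mul_eq_zero.1 h6).resolve_left h5)

end Main

section Hom

variable {k F L M : Type} [Field k] [CharZero k] [Field F] [Field L] [Field M]
  [Algebra k F] [Algebra k L] [Algebra k M] {n : ℕ}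

theorem hom_mem [Algebra L M] [IsScalarTower k L M] [Module.Finite L Ω[L⁄k]] (hF : PG k F n)
    {t : M} (h : IsRat L t) (φ : F →ₐ[k] M) (a : F) : φ a ∈ (algebraMap L M).range := by
  letI := φ.toRingHom.toAlgebra
  haveI : IsScalarTower k F M := .of_algebraMap_eq fun c => (φ.commutes c).symm
  exact range_le hF h a

/-- transport of `IsRat` -/
theorem IsRat.map {M' : Type} [Field M'] [Algebra L M] [Algebra L M'] {t : M} (h : IsRat L t)
    (e : M ≃ₐ[L] M') : IsRat L (e t) := by
  refine ⟨fun h1 => h.tr ((isAlgebraic_algHom_iff (e : M →ₐ[L] M') e.injective).1 h1), ?_⟩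
  have := congrArg (IntermediateField.map (e : M →ₐ[L] M')) h.gen
  rw [IntermediateField.adjoin_map, Set.image_singleton, ← AlgHom.fieldRange_eq_map] at this
  rw [show e t = (e : M →ₐ[L] M') t from rfl, this, eq_top_iff]
  exact fun x _ => e.surjective x

/-- an isomorphism of rational function fields restricts to the fields of constants -/
theorem rul [Module.Finite L Ω[L⁄k]] (hF : PG k F n) (e : RatFunc F ≃ₐ[k] RatFunc L) :
    ∃ f : F ≃ₐ[k] L, ∀ a, e (algebraMap F _ a) = algebraMap L _ (f a) := by
  let φ : F →ₐ[k] RatFunc L := (e : RatFunc F →ₐ[k] RatFunc L).comp (IsScalarTower.toAlgHom k F _)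
  letI := φ.toRingHom.toAlgebra
  haveI : IsScalarTower k F (RatFunc L) := .of_algebraMap_eq fun c => (φ.commutes c).symm
  let e' : RatFunc F ≃ₐ[F] RatFunc L := { e.toRingEquiv with commutes' := fun _ => rfl }
  have h1 := range_eq hF (isRat_X.map e') (isRat_X (L := L))
  have h2 : ∀ a : F, ∃ c : L, algebraMap L (RatFunc L) c = φ a := fun a =>
    h1.le (⟨a, rfl⟩ : φ a ∈ (algebraMap F (RatFunc L)).range)
  choose f hf using h2
  have inj := (algebraMap L (RatFunc L)).injective
  let f' : F →ₐ[k] L :=
    { toFun := f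
      map_one' := inj (by rw [hf, map_one, map_one])
      map_mul' := fun a c => inj (by rw [map_mul, hf, hf, hf, map_mul])
      map_zero' := inj (by rw [hf, map_zero, map_zero])
      map_add' := fun a c => inj (by rw [map_add, hf, hf, hf, map_add])
      commutes' := fun c => inj (by rw [hf, φ.commutes, ← IsScalarTower.algebraMap_apply]) }
  refine ⟨AlgEquiv.ofBijective f' ⟨f'.injective, fun c => ?_⟩, fun a => (hf a).symm⟩
  obtain ⟨a, ha⟩ := h1.ge (⟨c, rfl⟩ : algebraMap L _ c ∈ (algebraMap L (RatFunc L)).range)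
  exact ⟨a, inj ((hf a).trans ha)⟩

end Hom

end Crest.Agent.X262.Rul
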